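import Crest.Agent.X212.Lx51.Main_Mg
import Crest.Agent.X212.Sb27.Cls_Mg
import Crest.Agent.X212.Sw88.Ua_Mg
import Crest.Agent.X212.Sm42.Main_Mg
import Crest.Agent.X212.Lns95.Fin
import Crest.Agent.X212.Nck90.Cat_Mg
import Crest.Agent.X212.Sw88.Dea
import Crest.Agent.X212.Lw78.En_Mg
import Crest.Agent.X212.Kit16.Dw
import Crest.Agent.X212.Rb56.Fin
import Crest.Agent.X212.Crt72.Mv
import Crest.Agent.X212.Msi61.Fk
import Crest.Agent.X212.Wl34.Ccl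

/-!
# Row 212, F-KL (helper81): the open inputs
-/

set_option autoImplicit false
noncomputable section

namespace Crest.Agent.X212.Kof81
open An G75 Nd18 Fk18

variable {κ lam : Type} [Fintype κ] [Fintype lam] [DecidableEq lam] (Lm : LM κ lam)

/-- **the open inputs of `KlP`** -/
structure KPO : Prop where
  nm : Num99.NumLS Lm
  dat : Ins26.DatStmt Lm

variable {Lm} (A : Top0.At κ (lam ⊕ lam))
include A

theorem deA : AllJ Lm fun J c a => DeA J c a := fun _ _ _ _ _ _ _ _ _ =>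
  Sw88.Dea.deA fun M => A.rsp.iw M.ok M.cd

theorem wiA : AllS Lm fun J => ∀ a, Nonempty ((J.xs a).N.CD (J.xs a).D) → WI J a :=
  fun _ _ _ _ _ _ _ _ hJ _ cd => ⟨.inr (A.rsp.cw hJ cd), .of (A.rsp.ela hJ cd),
    Nck90.chX_cd hJ (A.rsp.cw hJ cd)⟩

theorem ja (ly : Rf65.LyStmt Lm) : JA Lm where
  pm S D i Wi r n J c a := Klp2.pmA (Ax1.Fr.fr J c a A.inv A.loce (Wl34.wlJ J))
    (Sw88.Dea.exA (deA A S D i Wi r n J c a))
    (Tla99.tlA (fun M => A.rsp.iw M.ok M.cd) Sw88.Ua.ua) (Sw88.Amd.mdA J c a)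
  de := deA A
  sy _ _ _ _ _ _ J _ a := Sym93.syA (Wl34.wlJ J) a
  dnx _ _ _ _ _ _ J c a := Kit16.dnX J c a
  fx _ _ _ _ _ _ J c _ := Fx4.fxA J c
  lm _ _ _ _ _ _ J c a := Fx4.lmA J c a
  ly := ly

/-- **F-KL** -/
theorem KPO.klP (H : KPO Lm) (h : Lns95.LH Lm) (L : KLx Lm) : KlP Lm :=
  klp L (Lns95.lv0 h) (face ⟨ja A L.ly, Hd82.hdStmt A.ix L.ly, Sm42.sm Lm, Sm42.int Lm,
    Lx51.lx h A.ix H.nm, Kit16.dnW Lm,
    Mi59.ml, Sep15.Mr.mr, Mi59.mi, Cay24.Mw.mw Lm, Rb56.rbS Lm, Rb56.raS Lm,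
    sbP L (wiA A) (Sb84.sb (An31.an_of (St29.Sb.anJ _ _) (Sb87.geoStmt H.dat) (Dgr80.An1.nm Lm)
      (Dgr80.An1.nl Lm)) (Yc4.yc Lm)
      (Kit16.Sb.gl2Stmt Lm (Glw42.glw _ _) L.ly) (Sb27.gl3 (Klp2.clsStmt _ _)) (Dec35.sbCore _ _)
      (Chr96.chr Lm)),
    Npm83.np (Npm83.lnk A.kp (Aps75.mix A.ix) (Crt72.mv (by norm_num) (Ax1.Lc.cz A.loce) A.kp)),
    Msi61.msStmt A.ix A.loce A.rsp⟩) (Lw78.En.en18 Lm)
    (Nkz76.wallY L (fun Y _ => (A.rsp Y).1) fun _ _ _ _ _ _ _ _ _ => Nk89.isoY) (wiA A)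

/-- **F-KL**, closed form -/
theorem klP (h : Lns95.LH Lm) (L : KLx Lm) (d : Ins26.DatStmt Lm) : KlP Lm :=
  KPO.klP A ⟨Num99.num h A.ix, d⟩ h L

end Crest.Agent.X212.Kof81
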